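import Mathlib

/-!
Diagonal scaling of Lebesgue measure on `ι → ℝ` and on `ℝ × (ι → ℝ)` (lower integrals).
-/

open MeasureTheory Set

namespace Vale.Agent.P262.H335

variable {ι : Type*} [Fintype ι]

/-- coordinatewise multiplication -/
def mulv (D x : ι → ℝ) : ι → ℝ := fun k => D k * x k

omit [Fintype ι] in
lemma measurable_mulv (D : ι → ℝ) : Measurable (mulv D) := by
  refine measurable_pi_lambda _ fun k => ?_
  exact measurable_const.mul (measurable_pi_apply k)

lemma lintegral_mulv {D : ι → ℝ} (hD : ∀ k, 0 < D k) {G : (ι → ℝ) → ENNReal}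
    (hG : Measurable G) :
    ∫⁻ x, G (mulv D x) * ENNReal.ofReal (∏ k, D k) = ∫⁻ x, G x := by
  classical
  have hdet : (Matrix.diagonal D).det = ∏ k, D k := Matrix.det_diagonal
  have hpos : 0 < ∏ k, D k := Finset.prod_pos fun k _ => hD k
  have h0 : (Matrix.diagonal D).det ≠ 0 := by rw [hdet]; exact hpos.ne'
  have key := Real.smul_map_diagonal_volume_pi h0
  rw [hdet, abs_of_pos hpos] at key
  have hfun : (⇑(Matrix.toLin' (Matrix.diagonal D)) : (ι → ℝ) → (ι → ℝ)) = mulv D := by
    funext x k
    simp [mulv, Matrix.toLin'_apply, Matrix.mulVec_diagonal]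
  rw [hfun] at key
  conv_rhs => rw [← key]
  rw [lintegral_smul_measure, lintegral_map hG (measurable_mulv D)]
  have h1 : Measurable fun x => G (mulv D x) := hG.comp (measurable_mulv D)
  rw [lintegral_mul_const _ h1, smul_eq_mul, mul_comm]

lemma lintegral_mul_left {a : ℝ} (ha : 0 < a) {g : ℝ → ENNReal} (hg : Measurable g) :
    ∫⁻ t, g (a * t) * ENNReal.ofReal a = ∫⁻ t, g t := by
  have key := Real.smul_map_volume_mul_left ha.ne'
  rw [abs_of_pos ha] at key
  conv_rhs => rw [← key]
  rw [lintegral_smul_measure, lintegral_map hg (measurable_const_mul a)]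
  have h1 : Measurable fun t => g (a * t) := hg.comp (measurable_const_mul a)
  rw [lintegral_mul_const _ h1, smul_eq_mul, mul_comm]

end Vale.Agent.P262.H335
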