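import Vale.Agent.P262.H335.Scale

/-!
One level of the iterated-centre change of variables (TIP lemma, helper763's proof in
projective coordinates).
-/

open MeasureTheory Set

namespace Vale.Agent.P262.H335

variable {ι : Type*} [Fintype ι]

omit [Fintype ι] in
lemma mulv_mulv (D E x : ι → ℝ) : mulv D (mulv E x) = mulv (fun k => D k * E k) x := by
  funext k; simp [mulv, mul_assoc]

/-- multiply the coordinates of level `j` by `t` -/
def dl (lev : ι → ℕ) (j : ℕ) (t : ℝ) (x : ι → ℝ) : ι → ℝ :=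
  mulv (fun k => if lev k = j then t else 1) x

/-- keep the coordinates of level `≤ i` -/
def tr (lev : ι → ℕ) (i : ℕ) (x : ι → ℝ) : ι → ℝ :=
  mulv (fun k => if lev k ≤ i then 1 else 0) x

/-- scale the coordinates of level `l ≥ j` by `lam l` -/
def scl (lev : ι → ℕ) (j : ℕ) (lam : ℕ → ℝ) (x : ι → ℝ) : ι → ℝ :=
  mulv (fun k => if j ≤ lev k then lam (lev k) else 1) x

/-- the Jacobian of `dl` -/
def wt (lev : ι → ℕ) (j : ℕ) (t : ℝ) : ℝ := ∏ k, if lev k = j then t else 1

/-- not in any of the sets of level `j ≤ i < n` -/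
def Lset (n j : ℕ) (H : ℕ → Set (ℝ × (ι → ℝ))) : Set (ℝ × (ι → ℝ)) :=
  {p | 0 < p.1 ∧ ∀ i, j ≤ i → i < n → p ∉ H i}

structure St (lev : ι → ℕ) (n j : ℕ) (H : ℕ → Set (ℝ × (ι → ℝ))) : Prop where
  meas : ∀ i, j ≤ i → i < n → MeasurableSet (H i)
  dep : ∀ i, j ≤ i → i < n → ∀ t x y, (∀ k, lev k ≤ i → x k = y k) → (t, x) ∈ H i → (t, y) ∈ H i
  line : ∀ i, j ≤ i → i < n → ∀ p q : ℝ × (ι → ℝ), (∀ k, lev k < j → p.2 k = q.2 k) →
    IsClosed {s : ℝ | p + s • (q - p) ∈ H i} ∧ OrdConnected {s : ℝ | p + s • (q - p) ∈ H i}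
  nest : ∀ i, j ≤ i → i + 1 < n → ∀ t x, (t, x) ∈ H i → (t, tr lev i x) ∈ H (i + 1)
  start : j < n → ∀ x, ((0 : ℝ), dl lev j 0 x) ∈ H j

section one

variable {lev : ι → ℕ} {n j : ℕ} {H : ℕ → Set (ℝ × (ι → ℝ))}

/-- healthy part of the ray over `x` -/
def Sx (lev : ι → ℕ) (j : ℕ) (H : ℕ → Set (ℝ × (ι → ℝ))) (x : ι → ℝ) : Set ℝ :=
  {s | 0 ≤ s ∧ (s, dl lev j s x) ∈ H j}

noncomputable def zz (lev : ι → ℕ) (j : ℕ) (H : ℕ → Set (ℝ × (ι → ℝ))) (x : ι → ℝ) : ℝ :=
  sSup (Sx lev j H x)

omit [Fintype ι] in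
lemma dl_one (x : ι → ℝ) : dl lev j 1 x = x := by
  funext k; simp [dl, mulv]

omit [Fintype ι] in
lemma ray_line (x : ι → ℝ) (s : ℝ) :
    ((0 : ℝ), dl lev j 0 x) + s • (((1 : ℝ), x) - ((0 : ℝ), dl lev j 0 x)) = (s, dl lev j s x) := by
  refine Prod.ext ?_ ?_
  · simp
  · funext k
    simp only [dl, mulv, Prod.snd_add, Prod.smul_snd, Prod.snd_sub, Pi.add_apply, Pi.smul_apply,
      Pi.sub_apply, smul_eq_mul]
    split_ifs <;> ring

omit [Fintype ι] in
lemma ray_props (hS : St lev n j H) (hj : j < n) (x : ι → ℝ) :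
    IsClosed {s : ℝ | (s, dl lev j s x) ∈ H j} ∧ OrdConnected {s : ℝ | (s, dl lev j s x) ∈ H j} := by
  have h := hS.line j le_rfl hj ((0 : ℝ), dl lev j 0 x) ((1 : ℝ), x) (by
    intro k hk
    simp [dl, mulv, hk.ne])
  simpa only [ray_line] using h

omit [Fintype ι] in
lemma zero_mem_Sx (hS : St lev n j H) (hj : j < n) (x : ι → ℝ) : (0 : ℝ) ∈ Sx lev j H x :=
  ⟨le_rfl, hS.start hj x⟩

omit [Fintype ι] in
lemma isClosed_Sx (hS : St lev n j H) (hj : j < n) (x : ι → ℝ) : IsClosed (Sx lev j H x) :=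
  isClosed_Ici.inter (ray_props hS hj x).1

omit [Fintype ι] in
lemma ordConnected_Sx (hS : St lev n j H) (hj : j < n) (x : ι → ℝ) :
    OrdConnected (Sx lev j H x) :=
  ordConnected_Ici.inter (ray_props hS hj x).2

omit [Fintype ι] in
lemma zz_mem (hS : St lev n j H) (hj : j < n) (x : ι → ℝ) : zz lev j H x ∈ Sx lev j H x := by
  by_cases hb : BddAbove (Sx lev j H x)
  · exact (isClosed_Sx hS hj x).csSup_mem ⟨0, zero_mem_Sx hS hj x⟩ hb
  · rw [zz, Real.sSup_of_not_bddAbove hb]
    exact zero_mem_Sx hS hj x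

omit [Fintype ι] in
lemma zz_nonneg (hS : St lev n j H) (hj : j < n) (x : ι → ℝ) : 0 ≤ zz lev j H x :=
  (zz_mem hS hj x).1

omit [Fintype ι] in
lemma notMem_iff (hS : St lev n j H) (hj : j < n) (x : ι → ℝ) {t : ℝ} (ht : 0 < t) :
    (t, dl lev j t x) ∉ H j ↔ BddAbove (Sx lev j H x) ∧ zz lev j H x < t := by
  constructor
  · intro h
    have hub : ∀ s ∈ Sx lev j H x, s ≤ t := by
      intro s hs
      by_contra hst
      push Not at hst
      exact h (((ordConnected_Sx hS hj x).out (zero_mem_Sx hS hj x) hs ⟨ht.le, hst.le⟩).2)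
    have hb : BddAbove (Sx lev j H x) := ⟨t, hub⟩
    refine ⟨hb, lt_of_le_of_ne (hub _ (zz_mem hS hj x)) ?_⟩
    intro he
    apply h
    have := (zz_mem hS hj x).2
    rwa [he] at this
  · rintro ⟨hb, hlt⟩ hmem
    exact absurd (le_csSup hb ⟨ht.le, hmem⟩) (not_le.2 hlt)

omit [Fintype ι] in
lemma measurable_dl2 : Measurable fun p : ℝ × (ι → ℝ) => dl lev j p.1 p.2 := by
  refine measurable_pi_lambda _ fun k => ?_
  simp only [dl, mulv]
  have h2 : Measurable fun p : ℝ × (ι → ℝ) => p.2 k := (measurable_pi_apply k).comp measurable_snd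
  split_ifs
  · exact measurable_fst.mul h2
  · exact measurable_const.mul h2

omit [Fintype ι] in
lemma measurable_ray (t : ℝ) : Measurable fun x : ι → ℝ => (t, dl lev j t x) :=
  measurable_const.prodMk (measurable_dl2.comp (measurable_const.prodMk measurable_id))

omit [Fintype ι] in
lemma bdd_iff (hS : St lev n j H) (hj : j < n) (x : ι → ℝ) :
    BddAbove (Sx lev j H x) ↔ ∃ N : ℕ, ((N : ℝ) + 1, dl lev j ((N : ℝ) + 1) x) ∉ H j := by
  constructor
  · intro hb
    obtain ⟨N, hN⟩ := exists_nat_gt (zz lev j H x)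
    refine ⟨N, (notMem_iff hS hj x (by positivity)).2 ⟨hb, ?_⟩⟩
    linarith
  · rintro ⟨N, hN⟩
    exact ((notMem_iff hS hj x (by positivity)).1 hN).1

omit [Fintype ι] in
lemma measurableSet_bdd (hS : St lev n j H) (hj : j < n) :
    MeasurableSet {x : ι → ℝ | BddAbove (Sx lev j H x)} := by
  have : {x : ι → ℝ | BddAbove (Sx lev j H x)} =
      ⋃ N : ℕ, (fun x : ι → ℝ => ((N : ℝ) + 1, dl lev j ((N : ℝ) + 1) x)) ⁻¹' (H j)ᶜ := by
    ext x
    simp only [mem_setOf_eq, mem_iUnion, mem_preimage, mem_compl_iff]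
    exact bdd_iff hS hj x
  rw [this]
  exact MeasurableSet.iUnion fun N => measurable_ray _ (hS.meas j le_rfl hj).compl

omit [Fintype ι] in
lemma measurable_zz (hS : St lev n j H) (hj : j < n) : Measurable (zz lev j H) := by
  refine measurable_of_Ici fun a => ?_
  by_cases ha : a ≤ 0
  · have : zz lev j H ⁻¹' Ici a = univ := by
      ext x; simp only [mem_preimage, mem_Ici, mem_univ, iff_true]
      exact ha.trans (zz_nonneg hS hj x)
    rw [this]; exact MeasurableSet.univ
  · push Not at ha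
    have : zz lev j H ⁻¹' Ici a = {x : ι → ℝ | BddAbove (Sx lev j H x)} ∩
        (fun x : ι → ℝ => (a, dl lev j a x)) ⁻¹' (H j) := by
      ext x
      simp only [mem_preimage, mem_Ici, mem_inter_iff, mem_setOf_eq]
      constructor
      · intro h
        have hb : BddAbove (Sx lev j H x) := by
          by_contra hb
          rw [zz, Real.sSup_of_not_bddAbove hb] at h
          linarith
        refine ⟨hb, ?_⟩
        exact ((ordConnected_Sx hS hj x).out (zero_mem_Sx hS hj x) (zz_mem hS hj x)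
          ⟨ha.le, h⟩).2
      · rintro ⟨hb, h⟩
        exact le_csSup hb ⟨ha.le, h⟩
    rw [this]
    exact (measurableSet_bdd hS hj).inter (measurable_ray a (hS.meas j le_rfl hj))

/-- the change of variables of one level -/
noncomputable def Psi (lev : ι → ℕ) (j : ℕ) (H : ℕ → Set (ℝ × (ι → ℝ))) (p : ℝ × (ι → ℝ)) :
    ℝ × (ι → ℝ) :=
  (p.1 + zz lev j H p.2, dl lev j (p.1 + zz lev j H p.2) p.2)

omit [Fintype ι] in
lemma measurable_Psi (hS : St lev n j H) (hj : j < n) : Measurable (Psi lev j H) := by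
  have h1 : Measurable fun p : ℝ × (ι → ℝ) => p.1 + zz lev j H p.2 :=
    measurable_fst.add ((measurable_zz hS hj).comp measurable_snd)
  exact h1.prodMk (measurable_dl2.comp (h1.prodMk measurable_snd))

lemma measurable_wt : Measurable (wt lev j) := by
  unfold wt
  refine Finset.measurable_prod _ fun k _ => ?_
  split_ifs
  · exact measurable_id
  · exact measurable_const

lemma wt_pos {t : ℝ} (ht : 0 < t) : 0 < wt lev j t :=
  Finset.prod_pos fun k _ => by split_ifs <;> positivity

/-- transported integrand -/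
noncomputable def Ft (lev : ι → ℕ) (j : ℕ) (H : ℕ → Set (ℝ × (ι → ℝ)))
    (F : ℝ × (ι → ℝ) → ENNReal) (p : ℝ × (ι → ℝ)) : ENNReal :=
  {x : ι → ℝ | BddAbove (Sx lev j H x)}.indicator
    (fun _ => ENNReal.ofReal (wt lev j (p.1 + zz lev j H p.2)) * F (Psi lev j H p)) p.2

lemma measurable_Ft (hS : St lev n j H) (hj : j < n) {F : ℝ × (ι → ℝ) → ENNReal}
    (hF : Measurable F) : Measurable (Ft lev j H F) := by
  have h1 : Measurable fun p : ℝ × (ι → ℝ) => p.1 + zz lev j H p.2 :=
    measurable_fst.add ((measurable_zz hS hj).comp measurable_snd)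
  have h2 : Measurable fun p : ℝ × (ι → ℝ) =>
      ENNReal.ofReal (wt lev j (p.1 + zz lev j H p.2)) * F (Psi lev j H p) :=
    (ENNReal.measurable_ofReal.comp (measurable_wt.comp h1)).mul
      (hF.comp (measurable_Psi hS hj))
  have h3 : Ft lev j H F = ((Prod.snd : ℝ × (ι → ℝ) → (ι → ℝ)) ⁻¹'
      {x : ι → ℝ | BddAbove (Sx lev j H x)}).indicator (fun p : ℝ × (ι → ℝ) =>
      ENNReal.ofReal (wt lev j (p.1 + zz lev j H p.2)) * F (Psi lev j H p)) := by
    funext p
    rfl
  rw [h3]
  exact h2.indicator (measurable_snd (measurableSet_bdd hS hj))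

omit [Fintype ι] in
lemma measurableSet_Lset (hm : ∀ i, j ≤ i → i < n → MeasurableSet (H i)) :
    MeasurableSet (Lset n j H) := by
  have : Lset n j H = {p : ℝ × (ι → ℝ) | 0 < p.1} ∩ ⋂ i, ⋂ (_ : j ≤ i), ⋂ (_ : i < n), (H i)ᶜ := by
    ext p; simp [Lset]
  rw [this]
  refine (measurableSet_lt measurable_const measurable_fst).inter ?_
  exact MeasurableSet.iInter fun i => MeasurableSet.iInter fun h1 => MeasurableSet.iInter
    fun h2 => (hm i h1 h2).compl

/-- TRANSITION IDENTITY -/
theorem transition (hS : St lev n j H) (hj : j < n) {G : ℝ × (ι → ℝ) → ENNReal}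
    (hG : Measurable G) :
    ∫⁻ p in Lset n j H, G p =
      ∫⁻ p in Lset n (j + 1) (fun i => Psi lev j H ⁻¹' H i), Ft lev j H G p := by
  classical
  have hL1 : MeasurableSet (Lset n j H) := measurableSet_Lset hS.meas
  have hL2 : MeasurableSet (Lset n (j + 1) (fun i => Psi lev j H ⁻¹' H i)) :=
    measurableSet_Lset fun i h1 h2 => measurable_Psi hS hj (hS.meas i (by omega) h2)
  rw [← lintegral_indicator hL1, ← lintegral_indicator hL2]
  set G1 : ℝ × (ι → ℝ) → ENNReal := (Lset n j H).indicator G with hG1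
  set G3 : ℝ × (ι → ℝ) → ENNReal :=
    (Lset n (j + 1) (fun i => Psi lev j H ⁻¹' H i)).indicator (Ft lev j H G) with hG3
  have mG1 : Measurable G1 := hG.indicator hL1
  have mG3 : Measurable G3 := (measurable_Ft hS hj hG).indicator hL2
  set G2 : ℝ × (ι → ℝ) → ENNReal := {p : ℝ × (ι → ℝ) | 0 < p.1}.indicator
    (fun p => G1 (p.1, dl lev j p.1 p.2) * ENNReal.ofReal (wt lev j p.1)) with hG2
  have mG2 : Measurable G2 := by
    refine Measurable.indicator ?_ (measurableSet_lt measurable_const measurable_fst)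
    exact (mG1.comp (measurable_fst.prodMk measurable_dl2)).mul
      (ENNReal.measurable_ofReal.comp (measurable_wt.comp measurable_fst))
  have e1 : ∫⁻ p, G1 p = ∫⁻ t, ∫⁻ x, G1 (t, x) := by
    rw [Measure.volume_eq_prod, lintegral_prod _ mG1.aemeasurable]
  have e2 : ∀ t : ℝ, ∫⁻ x, G1 (t, x) = ∫⁻ x, G2 (t, x) := by
    intro t
    by_cases ht : 0 < t
    · have hD : ∀ k, 0 < (fun k : ι => if lev k = j then t else (1 : ℝ)) k := by
        intro k; simp only; split_ifs <;> positivity
      have := lintegral_mulv hD (G := fun x => G1 (t, x))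
        (mG1.comp (measurable_const.prodMk measurable_id))
      rw [← this]
      refine lintegral_congr fun x => ?_
      rw [hG2, indicator_of_mem (show (t, x) ∈ {p : ℝ × (ι → ℝ) | 0 < p.1} from ht)]
      rfl
    · have h0 : ∀ x, G1 (t, x) = 0 := by
        intro x
        rw [hG1]
        exact indicator_of_notMem (fun h => ht h.1) _
      have h0' : ∀ x, G2 (t, x) = 0 := by
        intro x
        rw [hG2]
        exact indicator_of_notMem (show (t, x) ∉ {p : ℝ × (ι → ℝ) | 0 < p.1} from ht) _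
      simp [h0, h0']
  have e3 : ∫⁻ t, ∫⁻ x, G2 (t, x) = ∫⁻ x, ∫⁻ t, G2 (t, x) := by
    rw [← lintegral_prod _ mG2.aemeasurable, lintegral_prod_symm' _ mG2]
  have e4 : ∀ x : ι → ℝ, ∫⁻ t, G2 (t, x) = ∫⁻ t, G3 (t, x) := by
    intro x
    rw [← lintegral_add_right_eq_self (fun t => G2 (t, x)) (zz lev j H x)]
    refine lintegral_congr fun t => ?_
    have hz := zz_nonneg hS hj x
    by_cases ht : 0 < t
    · have ht' : 0 < t + zz lev j H x := by linarith
      rw [hG2, indicator_of_mem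
        (show (t + zz lev j H x, x) ∈ {p : ℝ × (ι → ℝ) | 0 < p.1} from ht')]
      simp only
      by_cases hU : BddAbove (Sx lev j H x)
      · have hnot : (t + zz lev j H x, dl lev j (t + zz lev j H x) x) ∉ H j :=
          (notMem_iff hS hj x ht').2 ⟨hU, by linarith⟩
        by_cases hL : (t, x) ∈ Lset n (j + 1) (fun i => Psi lev j H ⁻¹' H i)
        · have hL' : (t + zz lev j H x, dl lev j (t + zz lev j H x) x) ∈ Lset n j H := by
            refine ⟨ht', fun i h1 h2 => ?_⟩
            rcases eq_or_lt_of_le h1 with h | h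
            · subst h; exact hnot
            · exact hL.2 i h h2
          rw [hG3, indicator_of_mem hL, hG1, indicator_of_mem hL', Ft,
            indicator_of_mem (show x ∈ {x : ι → ℝ | BddAbove (Sx lev j H x)} from hU)]
          rw [mul_comm]; rfl
        · have hL' : (t + zz lev j H x, dl lev j (t + zz lev j H x) x) ∉ Lset n j H := by
            intro h
            exact hL ⟨ht, fun i h1 h2 => h.2 i (by omega) h2⟩
          rw [hG3, indicator_of_notMem hL, hG1, indicator_of_notMem hL', zero_mul]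
      · have hmem : (t + zz lev j H x, dl lev j (t + zz lev j H x) x) ∈ H j := by
          by_contra h
          exact hU ((notMem_iff hS hj x ht').1 h).1
        have hL' : (t + zz lev j H x, dl lev j (t + zz lev j H x) x) ∉ Lset n j H :=
          fun h => h.2 j le_rfl hj hmem
        rw [hG1, indicator_of_notMem hL', zero_mul, hG3]
        by_cases hL : (t, x) ∈ Lset n (j + 1) (fun i => Psi lev j H ⁻¹' H i)
        · rw [indicator_of_mem hL, Ft,
            indicator_of_notMem (show x ∉ {x : ι → ℝ | BddAbove (Sx lev j H x)} from hU)]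
        · rw [indicator_of_notMem hL]
    · have hL : (t, x) ∉ Lset n (j + 1) (fun i => Psi lev j H ⁻¹' H i) := fun h => ht h.1
      rw [hG3, indicator_of_notMem hL, hG2]
      by_cases ht' : 0 < t + zz lev j H x
      · rw [indicator_of_mem
          (show (t + zz lev j H x, x) ∈ {p : ℝ × (ι → ℝ) | 0 < p.1} from ht')]
        simp only
        have hL' : (t + zz lev j H x, dl lev j (t + zz lev j H x) x) ∉ Lset n j H := by
          intro h
          have := ((notMem_iff hS hj x ht').1 (h.2 j le_rfl hj)).2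
          linarith
        rw [hG1, indicator_of_notMem hL', zero_mul]
      · exact indicator_of_notMem
          (show (t + zz lev j H x, x) ∉ {p : ℝ × (ι → ℝ) | 0 < p.1} from ht') _
  have e5 : ∫⁻ x, ∫⁻ t, G3 (t, x) = ∫⁻ p, G3 p := by
    rw [Measure.volume_eq_prod, lintegral_prod_symm' _ mG3]
  rw [e1, lintegral_congr e2, e3, lintegral_congr e4, e5]

end one

end Vale.Agent.P262.H335
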