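import Vale.Agent.P262.H335.Stage

/-!
Iterated-centre transport inequality (abstract form of the TIP lemma of helper763).
-/

open MeasureTheory Set

namespace Vale.Agent.P262.H335

variable {ι : Type*} [Fintype ι]

section two

variable {lev : ι → ℕ} {n j : ℕ} {H : ℕ → Set (ℝ × (ι → ℝ))}

omit [Fintype ι] in
lemma Sx_congr (hS : St lev n j H) (hj : j < n) {x y : ι → ℝ}
    (h : ∀ k, lev k ≤ j → x k = y k) : Sx lev j H x = Sx lev j H y := by
  have key : ∀ x y : ι → ℝ, (∀ k, lev k ≤ j → x k = y k) → Sx lev j H x ⊆ Sx lev j H y := by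
    intro x y h s hs
    refine ⟨hs.1, hS.dep j le_rfl hj _ _ _ ?_ hs.2⟩
    intro k hk
    simp only [dl, mulv, h k hk]
  exact Subset.antisymm (key x y h) (key y x fun k hk => (h k hk).symm)

omit [Fintype ι] in
lemma zz_congr (hS : St lev n j H) (hj : j < n) {x y : ι → ℝ}
    (h : ∀ k, lev k ≤ j → x k = y k) : zz lev j H x = zz lev j H y := by
  rw [zz, zz, Sx_congr hS hj h]

omit [Fintype ι] in
/-- `Psi` is affine along lines which do not move the levels `≤ j`. -/
lemma Psi_line (hS : St lev n j H) (hj : j < n) (p q : ℝ × (ι → ℝ))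
    (h : ∀ k, lev k ≤ j → p.2 k = q.2 k) (s : ℝ) :
    Psi lev j H (p + s • (q - p)) =
      Psi lev j H p + s • (Psi lev j H q - Psi lev j H p) := by
  have h1 : ∀ k, lev k ≤ j → (p + s • (q - p)).2 k = p.2 k := by
    intro k hk
    simp only [Prod.snd_add, Prod.smul_snd, Prod.snd_sub, Pi.add_apply, Pi.smul_apply,
      Pi.sub_apply, smul_eq_mul, h k hk, sub_self, mul_zero, add_zero]
  have z1 := zz_congr hS hj h1
  have z2 := zz_congr hS hj h
  refine Prod.ext ?_ ?_
  · simp only [Psi, z1, ← z2, Prod.fst_add, Prod.smul_fst, Prod.fst_sub, smul_eq_mul]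
    ring
  · funext k
    simp only [Psi]
    rw [z1, ← z2]
    simp only [dl, mulv, Prod.fst_add, Prod.smul_fst, Prod.fst_sub, Prod.snd_add,
      Prod.smul_snd, Prod.snd_sub, Pi.add_apply, Pi.smul_apply, Pi.sub_apply, smul_eq_mul]
    by_cases hk : lev k = j
    · simp only [if_pos hk, h k hk.le]; ring
    · simp only [if_neg hk]; ring

omit [Fintype ι] in
theorem St.next (hS : St lev n j H) (hj : j < n) :
    St lev n (j + 1) (fun i => Psi lev j H ⁻¹' H i) where
  meas i h1 h2 := measurable_Psi hS hj (hS.meas i (by omega) h2)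
  dep i h1 h2 t x y hxy hx := by
    have hz : zz lev j H x = zz lev j H y := zz_congr hS hj fun k hk => hxy k (by omega)
    simp only [mem_preimage, Psi] at hx ⊢
    rw [← hz]
    refine hS.dep i (by omega) h2 _ _ _ ?_ hx
    intro k hk
    simp only [dl, mulv, hxy k hk]
  line i h1 h2 p q hpq := by
    have h3 : ∀ k, lev k ≤ j → p.2 k = q.2 k := fun k hk => hpq k (by omega)
    have h4 := hS.line i (by omega) h2 (Psi lev j H p) (Psi lev j H q) (by
      intro k hk
      have hz := zz_congr hS hj h3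
      simp only [Psi, dl, mulv, if_neg hk.ne, one_mul]
      exact h3 k hk.le)
    have h5 : {s : ℝ | p + s • (q - p) ∈ (fun i => Psi lev j H ⁻¹' H i) i} =
        {s : ℝ | Psi lev j H p + s • (Psi lev j H q - Psi lev j H p) ∈ H i} := by
      ext s
      show Psi lev j H (p + s • (q - p)) ∈ H i ↔ _
      rw [Psi_line hS hj p q h3 s]
      rfl
    rw [h5]
    exact h4
  nest i h1 h2 t x hx := by
    have hz : zz lev j H (tr lev i x) = zz lev j H x := by
      refine zz_congr hS hj fun k hk => ?_
      have : lev k ≤ i := by omega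
      simp [tr, mulv, this]
    simp only [mem_preimage, Psi] at hx ⊢
    rw [hz]
    have h3 := hS.nest i (by omega) h2 _ _ hx
    have h4 : dl lev j (t + zz lev j H x) (tr lev i x) =
        tr lev i (dl lev j (t + zz lev j H x) x) := by
      simp only [dl, tr, mulv_mulv]
      congr 1
      funext k; ring
    rw [h4]; exact h3
  start h1 x := by
    have hz : zz lev j H (dl lev (j + 1) 0 x) = zz lev j H x := by
      refine zz_congr hS hj fun k hk => ?_
      have : lev k ≠ j + 1 := by omega
      simp [dl, mulv, this]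
    simp only [mem_preimage, Psi, zero_add]
    rw [hz]
    have h3 := hS.nest j le_rfl h1 _ _ (zz_mem hS hj x).2
    refine hS.dep (j + 1) (by omega) h1 _ _ _ ?_ h3
    intro k hk
    simp only [tr, dl, mulv]
    rcases Nat.lt_or_ge j (lev k) with h | h
    · have h6 : lev k = j + 1 := by omega
      simp [h6]
    · have h6 : lev k ≠ j + 1 := by omega
      simp [h, h6]

end two

/-- pointwise hypothesis: `F` at a dead point is at most `f` at its contraction towards the
iterated centre, times the Jacobian -/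
def PH (lev : ι → ℕ) (n j : ℕ) (H : ℕ → Set (ℝ × (ι → ℝ))) (F f : ℝ × (ι → ℝ) → ENNReal) :
    Prop :=
  ∀ (p : ℝ × (ι → ℝ)) (lam : ℕ → ℝ), p ∈ Lset n j H →
    (∀ i, j ≤ i → i < n → lam (i + 1) ≤ lam i) → lam j ≤ 1 → lam n = 1 / 2 →
    (lam j * p.1, scl lev j lam p.2) ∈ Lset n j H →
    (j < n → (2 : ℝ) • (lam j * p.1, scl lev j lam p.2) - p ∈ H (n - 1)) →
    F p ≤ f (lam j * p.1, scl lev j lam p.2) *
      ENNReal.ofReal (1 / 2 * ∏ k, if j ≤ lev k then lam (lev k) else 1)

section three

variable {lev : ι → ℕ} {n j : ℕ} {H : ℕ → Set (ℝ × (ι → ℝ))} {F f : ℝ × (ι → ℝ) → ENNReal}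

theorem PH.next (hS : St lev n j H) (hj : j < n)
    (hP : PH lev n j H F f) :
    PH lev n (j + 1) (fun i => Psi lev j H ⁻¹' H i) (Ft lev j H F) (Ft lev j H f) := by
  classical
  rintro ⟨t, x⟩ lam hp hanti h1 hn hp' hcen
  simp only at hp' hcen ⊢
  by_cases hU : BddAbove (Sx lev j H x)
  swap
  · rw [Ft, indicator_of_notMem (show x ∉ {x : ι → ℝ | BddAbove (Sx lev j H x)} from hU)]
    exact bot_le
  have ht : 0 < t := hp.1
  set x' := scl lev (j + 1) lam x with hx'
  have hxx' : ∀ k, lev k ≤ j → x' k = x k := by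
    intro k hk
    have : ¬ (j + 1 ≤ lev k) := by omega
    rw [hx', scl, mulv, if_neg this, one_mul]
  have hz : zz lev j H x' = zz lev j H x := zz_congr hS hj hxx'
  have hU' : BddAbove (Sx lev j H x') := by rw [Sx_congr hS hj hxx']; exact hU
  set z := zz lev j H x with hzdef
  have hz0 : 0 ≤ z := zz_nonneg hS hj x
  have ht' : 0 < lam (j + 1) * t := hp'.1
  have hlamj : 0 < lam (j + 1) := by
    by_contra h
    push Not at h
    have := mul_nonpos_of_nonpos_of_nonneg h ht.le
    linarith
  have htz : 0 < t + z := by linarith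
  set m : ℝ := (lam (j + 1) * t + z) / (t + z) with hm
  have hmt : m * (t + z) = lam (j + 1) * t + z := by
    rw [hm]; field_simp
  set lam' : ℕ → ℝ := fun i => if i = j then m else lam i with hlam'
  have hlj : lam' j = m := by simp [hlam']
  have hlne : ∀ i, i ≠ j → lam' i = lam i := fun i hi => by simp [hlam', hi]
  have hPsip : Psi lev j H (t, x) = (t + z, dl lev j (t + z) x) := rfl
  have hPsip' : Psi lev j H (lam (j + 1) * t, x') =
      (lam (j + 1) * t + z, dl lev j (lam (j + 1) * t + z) x') := by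
    simp only [Psi, hz]
  have hscal : (lam' j * (t + z), scl lev j lam' (dl lev j (t + z) x)) =
      Psi lev j H (lam (j + 1) * t, x') := by
    rw [hPsip']
    refine Prod.ext ?_ ?_
    · simp only [hlj, hmt]
    · funext k
      simp only [scl, dl, mulv, hx']
      rcases lt_trichotomy (lev k) j with h | h | h
      · have a1 : ¬ (j ≤ lev k) := by omega
        have a2 : lev k ≠ j := by omega
        have a3 : ¬ (j + 1 ≤ lev k) := by omega
        simp [a1, a2, a3]
      · have a3 : ¬ (j + 1 ≤ lev k) := by omega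
        have a1 : j ≤ lev k := by omega
        rw [if_pos a1, if_pos h, if_pos h, if_neg a3, h, hlj, one_mul, ← mul_assoc, hmt]
      · have a1 : j ≤ lev k := by omega
        have a2 : lev k ≠ j := by omega
        have a3 : j + 1 ≤ lev k := by omega
        rw [if_pos a1, if_neg a2, if_neg a2, if_pos a3, hlne _ a2]
        ring
  have hnp : (t + z, dl lev j (t + z) x) ∉ H j :=
    (notMem_iff hS hj x htz).2 ⟨hU, by rw [← hzdef]; linarith⟩
  have hL : Psi lev j H (t, x) ∈ Lset n j H := by
    refine ⟨htz, fun i a b => ?_⟩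
    rcases eq_or_lt_of_le a with h | h
    · subst h; exact hnp
    · exact hp.2 i h b
  have htz' : 0 < lam (j + 1) * t + z := by linarith
  have hL' : Psi lev j H (lam (j + 1) * t, x') ∈ Lset n j H := by
    refine ⟨by rw [hPsip']; exact htz', fun i a b => ?_⟩
    rcases eq_or_lt_of_le a with h | h
    · subst h
      rw [hPsip']
      exact (notMem_iff hS hj x' htz').2 ⟨hU', by rw [hz]; linarith⟩
    · exact hp'.2 i h b
  have hm1 : m ≤ 1 := by
    rw [hm, div_le_one htz]
    nlinarith
  have hml : lam (j + 1) ≤ m := by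
    rw [hm, le_div_iff₀ htz]
    nlinarith
  have key := hP (Psi lev j H (t, x)) lam' hL
    (by
      intro i a b
      rcases eq_or_lt_of_le a with h | h
      · subst h
        rw [hlj, hlne _ (by omega)]
        exact hml
      · rw [hlne _ (by omega), hlne _ (by omega)]
        exact hanti i h b)
    (by rw [hlj]; exact hm1)
    (by rw [hlne _ (by omega)]; exact hn)
    (by rw [hPsip]; simp only; rw [hscal]; exact hL')
    (by
      intro _
      rw [hPsip]; simp only
      rw [hscal]
      by_cases hjn : j + 1 < n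
      · have h3 := hcen hjn
        have h4 : Psi lev j H ((2 : ℝ) • (lam (j + 1) * t, x') - (t, x)) =
            (2 : ℝ) • Psi lev j H (lam (j + 1) * t, x') - Psi lev j H (t, x) := by
          have h5 := Psi_line hS hj (t, x) (lam (j + 1) * t, x')
            (fun k hk => (hxx' k hk).symm) 2
          have h6 : (t, x) + (2 : ℝ) • ((lam (j + 1) * t, x') - (t, x)) =
              (2 : ℝ) • (lam (j + 1) * t, x') - (t, x) := by
            rw [smul_sub, two_smul ℝ (t, x)]; abel
          rw [h6] at h5
          rw [h5, smul_sub, two_smul ℝ (Psi lev j H (t, x))]; abel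
        have h7 : Psi lev j H ((2 : ℝ) • (lam (j + 1) * t, x') - (t, x)) ∈ H (n - 1) := h3
        rw [h4, hPsip] at h7
        exact h7
      · have hjn' : n = j + 1 := by omega
        have hn1 : n - 1 = j := by omega
        have hl2 : lam (j + 1) = 1 / 2 := by rw [← hjn']; exact hn
        rw [hn1]
        have hzm : (z, dl lev j z x) ∈ H j := (zz_mem hS hj x).2
        have h8 : (2 : ℝ) • Psi lev j H (lam (j + 1) * t, x') - (t + z, dl lev j (t + z) x) =
            (z, (2 : ℝ) • dl lev j (lam (j + 1) * t + z) x' - dl lev j (t + z) x) := by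
          rw [hPsip']
          refine Prod.ext ?_ rfl
          simp only [Prod.fst_sub, Prod.smul_fst, smul_eq_mul, hl2]
          ring
        rw [h8]
        refine hS.dep j le_rfl hj _ _ _ ?_ hzm
        intro k hk
        simp only [dl, mulv, Pi.sub_apply, Pi.smul_apply, smul_eq_mul, hxx' k hk, hl2]
        split_ifs <;> ring)
  rw [hPsip] at key
  simp only at key
  rw [hscal] at key
  have e1 : Ft lev j H F (t, x) =
      ENNReal.ofReal (wt lev j (t + z)) * F (Psi lev j H (t, x)) := by
    rw [Ft, indicator_of_mem (show x ∈ {x : ι → ℝ | BddAbove (Sx lev j H x)} from hU)]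
  have e2 : Ft lev j H f (lam (j + 1) * t, x') =
      ENNReal.ofReal (wt lev j (lam (j + 1) * t + z)) * f (Psi lev j H (lam (j + 1) * t, x')) := by
    rw [Ft, indicator_of_mem (show x' ∈ {x : ι → ℝ | BddAbove (Sx lev j H x)} from hU')]
    simp only [hz]
  rw [e1, e2]
  have e3 : wt lev j (t + z) * (1 / 2 * ∏ k, if j ≤ lev k then lam' (lev k) else 1) =
      wt lev j (lam (j + 1) * t + z) *
        (1 / 2 * ∏ k, if j + 1 ≤ lev k then lam (lev k) else 1) := by
    have e4 : wt lev j (t + z) * (∏ k, if j ≤ lev k then lam' (lev k) else 1) =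
        wt lev j (lam (j + 1) * t + z) * (∏ k, if j + 1 ≤ lev k then lam (lev k) else 1) := by
      rw [wt, wt, ← Finset.prod_mul_distrib, ← Finset.prod_mul_distrib]
      refine Finset.prod_congr rfl fun k _ => ?_
      rcases lt_trichotomy (lev k) j with h | h | h
      · have a1 : ¬ (j ≤ lev k) := by omega
        have a2 : lev k ≠ j := by omega
        have a3 : ¬ (j + 1 ≤ lev k) := by omega
        simp [a1, a2, a3]
      · have a3 : ¬ (j + 1 ≤ lev k) := by omega
        have a1 : j ≤ lev k := by omega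
        rw [if_pos a1, if_pos h, if_pos h, if_neg a3, h, hlj, mul_one, mul_comm, hmt]
      · have a1 : j ≤ lev k := by omega
        have a2 : lev k ≠ j := by omega
        have a3 : j + 1 ≤ lev k := by omega
        rw [if_pos a1, if_neg a2, if_neg a2, if_pos a3, hlne _ a2]
    calc _ = 1 / 2 * (wt lev j (t + z) * (∏ k, if j ≤ lev k then lam' (lev k) else 1)) := by ring
      _ = _ := by rw [e4]; ring
  have hwpos : 0 ≤ wt lev j (t + z) := (wt_pos htz).le
  have hwpos' : 0 ≤ wt lev j (lam (j + 1) * t + z) := (wt_pos htz').le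
  calc ENNReal.ofReal (wt lev j (t + z)) * F (Psi lev j H (t, x))
      ≤ ENNReal.ofReal (wt lev j (t + z)) * (f (Psi lev j H (lam (j + 1) * t, x')) *
        ENNReal.ofReal (1 / 2 * ∏ k, if j ≤ lev k then lam' (lev k) else 1)) := by
        gcongr
        exact key
    _ = f (Psi lev j H (lam (j + 1) * t, x')) * ENNReal.ofReal (wt lev j (t + z) *
        (1 / 2 * ∏ k, if j ≤ lev k then lam' (lev k) else 1)) := by
        rw [ENNReal.ofReal_mul hwpos]; ring
    _ = f (Psi lev j H (lam (j + 1) * t, x')) * ENNReal.ofReal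
        (wt lev j (lam (j + 1) * t + z) *
        (1 / 2 * ∏ k, if j + 1 ≤ lev k then lam (lev k) else 1)) := by rw [e3]
    _ = _ := by
        rw [ENNReal.ofReal_mul hwpos']; ring

lemma lintegral_scale {g : ℝ × (ι → ℝ) → ENNReal} (hg : Measurable g) {a : ℝ} (ha : 0 < a)
    {D : ι → ℝ} (hD : ∀ k, 0 < D k) :
    ∫⁻ p : ℝ × (ι → ℝ), g (a * p.1, mulv D p.2) * ENNReal.ofReal (a * ∏ k, D k) =
      ∫⁻ p, g p := by
  have hm : Measurable fun p : ℝ × (ι → ℝ) => (a * p.1, mulv D p.2) :=
    (measurable_fst.const_mul a).prodMk ((measurable_mulv D).comp measurable_snd)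
  have hm1 : Measurable fun p : ℝ × (ι → ℝ) => g (a * p.1, mulv D p.2) * ENNReal.ofReal (a * ∏ k, D k) :=
    (hg.comp hm).mul_const _
  rw [Measure.volume_eq_prod, lintegral_prod _ hm1.aemeasurable, lintegral_prod _ hg.aemeasurable]
  have e1 : ∀ t : ℝ, ∫⁻ x, g (a * t, mulv D x) * ENNReal.ofReal (a * ∏ k, D k) =
      (∫⁻ x, g (a * t, x)) * ENNReal.ofReal a := by
    intro t
    have h1 : Measurable fun x : ι → ℝ => g (a * t, x) :=
      hg.comp (measurable_const.prodMk measurable_id)
    rw [← lintegral_mulv hD h1, ← lintegral_mul_const]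
    · refine lintegral_congr fun x => ?_
      rw [ENNReal.ofReal_mul ha.le]; ring
    · exact (h1.comp (measurable_mulv D)).mul_const _
  rw [lintegral_congr e1]
  have h2 : Measurable fun t : ℝ => ∫⁻ x, g (t, x) := hg.lintegral_prod_right'
  exact lintegral_mul_left ha h2

theorem stage : ∀ (r j : ℕ) (H : ℕ → Set (ℝ × (ι → ℝ))) (F f : ℝ × (ι → ℝ) → ENNReal),
    j + r = n → St lev n j H → Measurable F → Measurable f → PH lev n j H F f →
    ∫⁻ p in Lset n j H, F p ≤ ∫⁻ p in Lset n j H, f p := by
  intro r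
  induction r with
  | zero =>
    intro j H F f hjn hS hF hf hP
    have hjn' : j = n := by omega
    subst hjn'
    have hLs : MeasurableSet (Lset j j H) := measurableSet_Lset hS.meas
    rw [← lintegral_indicator hLs, ← lintegral_indicator hLs]
    set D : ι → ℝ := fun k => if j ≤ lev k then (1 / 2 : ℝ) else 1 with hD
    have hDpos : ∀ k, 0 < D k := by intro k; simp only [hD]; split_ifs <;> norm_num
    rw [← lintegral_scale (hf.indicator hLs) (show (0 : ℝ) < 1 / 2 by norm_num) hDpos]
    refine lintegral_mono fun p => ?_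
    by_cases hp : p ∈ Lset j j H
    · have hp' : ((1 / 2 : ℝ) * p.1, mulv D p.2) ∈ Lset j j H := by
        refine ⟨?_, fun i a b => absurd a (by omega)⟩
        have := hp.1
        positivity
      rw [indicator_of_mem hp, indicator_of_mem hp']
      have := hP p (fun _ => 1 / 2) hp (fun i a b => le_rfl) (by norm_num) rfl hp'
        (fun h => absurd h (lt_irrefl _))
      exact this
    · rw [indicator_of_notMem hp]; exact bot_le
  | succ r ih =>
    intro j H F f hjn hS hF hf hP
    have hj : j < n := by omega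
    rw [transition hS hj hF, transition hS hj hf]
    exact ih (j + 1) _ _ _ (by omega) (hS.next hj) (measurable_Ft hS hj hF)
      (measurable_Ft hS hj hf) (hP.next hS hj)

end three

section four

/-- nested healthy sets -/
structure Hs (lev : ι → ℕ) (n : ℕ) (K : ℕ → Set (ι → ℝ)) : Prop where
  closed : ∀ i < n, IsClosed (K i)
  convex : ∀ i < n, Convex ℝ (K i)
  dep : ∀ i < n, ∀ x y : ι → ℝ, (∀ k, lev k ≤ i → x k = y k) → x ∈ K i → y ∈ K i
  nest : ∀ i, i + 1 < n → ∀ x ∈ K i, tr lev i x ∈ K (i + 1)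
  start : 0 < n → (0 : ι → ℝ) ∈ K 0

variable {lev : ι → ℕ} {n : ℕ} {K : ℕ → Set (ι → ℝ)} {F f : (ι → ℝ) → ENNReal}

lemma Hs.st (hK : Hs lev n K) : St lev n 0 (fun i => (Prod.snd : ℝ × (ι → ℝ) → _) ⁻¹' K i) where
  meas i _ h := measurable_snd (hK.closed i h).measurableSet
  dep i _ h t x y hxy hx := hK.dep i h x y hxy hx
  line i _ h p q _ := by
    have h1 : {s : ℝ | p + s • (q - p) ∈ (fun i => (Prod.snd : ℝ × (ι → ℝ) → _) ⁻¹' K i) i} =
        (fun s : ℝ => p.2 + s • (q.2 - p.2)) ⁻¹' K i := by
      ext s; rfl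
    rw [h1]
    have hc : Continuous fun s : ℝ => p.2 + s • (q.2 - p.2) :=
      continuous_const.add (continuous_id.smul continuous_const)
    refine ⟨(hK.closed i h).preimage hc, Convex.ordConnected ?_⟩
    have h2 : (fun s : ℝ => p.2 + s • (q.2 - p.2)) = ⇑(AffineMap.lineMap (k := ℝ) p.2 q.2) := by
      funext s
      simp [AffineMap.lineMap_apply, add_comm]
    rw [h2]
    exact (hK.convex i h).affine_preimage _
  nest i _ h t x hx := hK.nest i h x hx
  start h x := by
    show dl lev 0 0 x ∈ K 0
    refine hK.dep 0 h 0 _ ?_ (hK.start h)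
    intro k hk
    have : lev k = 0 := by omega
    simp [dl, mulv, this]

/-- **Abstract TIP lemma.** -/
theorem tip0 (hK : Hs lev n K) (hF : Measurable F) (hf : Measurable f)
    (hP : ∀ (x : ι → ℝ) (lam : ℕ → ℝ), (∀ i < n, x ∉ K i) →
      (∀ i < n, lam (i + 1) ≤ lam i) → lam 0 ≤ 1 → lam n = 1 / 2 →
      (∀ i < n, mulv (fun k => lam (lev k)) x ∉ K i) →
      (0 < n → (2 : ℝ) • mulv (fun k => lam (lev k)) x - x ∈ K (n - 1)) →
      F x ≤ f (mulv (fun k => lam (lev k)) x) * ENNReal.ofReal (1 / 2 * ∏ k, lam (lev k))) :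
    ∫⁻ x in {x | ∀ i < n, x ∉ K i}, F x ≤ ∫⁻ x in {x | ∀ i < n, x ∉ K i}, f x := by
  classical
  have hmK : MeasurableSet {x : ι → ℝ | ∀ i < n, x ∉ K i} := by
    have : {x : ι → ℝ | ∀ i < n, x ∉ K i} = ⋂ i, ⋂ (_ : i < n), (K i)ᶜ := by
      ext x; simp
    rw [this]
    exact MeasurableSet.iInter fun i => MeasurableSet.iInter fun h =>
      (hK.closed i h).measurableSet.compl
  set H : ℕ → Set (ℝ × (ι → ℝ)) := fun i => (Prod.snd : ℝ × (ι → ℝ) → _) ⁻¹' K i with hH
  have hS : St lev n 0 H := hK.st
  have hLs : MeasurableSet (Lset n 0 H) := measurableSet_Lset hS.meas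
  -- the dummy variable
  let c : ((ι → ℝ) → ENNReal) → (ℝ × (ι → ℝ) → ENNReal) := fun G p =>
    (Iio (1 : ℝ)).indicator (fun _ => G p.2) p.1
  have hc : ∀ G, Measurable G → Measurable (c G) := by
    intro G hG
    have : c G = ((Prod.fst : ℝ × (ι → ℝ) → ℝ) ⁻¹' Iio 1).indicator (fun p => G p.2) := by
      funext p; rfl
    rw [this]
    exact (hG.comp measurable_snd).indicator (measurable_fst measurableSet_Iio)
  have hint : ∀ G, Measurable G → ∫⁻ p in Lset n 0 H, c G p =
      ∫⁻ x in {x | ∀ i < n, x ∉ K i}, G x := by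
    intro G hG
    rw [← lintegral_indicator hLs, ← lintegral_indicator hmK, Measure.volume_eq_prod,
      lintegral_prod_symm' _ ((hc G hG).indicator hLs)]
    refine lintegral_congr fun x => ?_
    by_cases hx : x ∈ {x : ι → ℝ | ∀ i < n, x ∉ K i}
    · have h1 : ∀ t : ℝ, (Lset n 0 H).indicator (c G) (t, x) =
          (Ioo (0 : ℝ) 1).indicator (fun _ => G x) t := by
        intro t
        by_cases ht : t ∈ Ioo (0 : ℝ) 1
        · have h2 : (t, x) ∈ Lset n 0 H := ⟨ht.1, fun i _ h => hx i h⟩
          rw [indicator_of_mem h2, indicator_of_mem ht]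
          exact indicator_of_mem (show t ∈ Iio (1 : ℝ) from ht.2) _
        · rw [indicator_of_notMem ht]
          by_cases h2 : (t, x) ∈ Lset n 0 H
          · rw [indicator_of_mem h2]
            refine indicator_of_notMem (show t ∉ Iio (1 : ℝ) from fun h3 => ht ⟨h2.1, h3⟩) _
          · rw [indicator_of_notMem h2]
      rw [lintegral_congr h1, lintegral_indicator measurableSet_Ioo, indicator_of_mem hx]
      simp
    · have h1 : ∀ t : ℝ, (Lset n 0 H).indicator (c G) (t, x) = 0 := by
        intro t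
        refine indicator_of_notMem (fun h => hx ?_) _
        intro i hi
        exact h.2 i (Nat.zero_le _) hi
      rw [indicator_of_notMem hx]
      simp [h1]
  rw [← hint F hF, ← hint f hf]
  refine stage n 0 H (c F) (c f) (by omega) hS (hc F hF) (hc f hf) ?_
  rintro ⟨t, x⟩ lam hp hanti h1 hn hp' hcen
  have hscl : scl lev 0 lam x = mulv (fun k => lam (lev k)) x := by
    simp [scl]
  simp only [hscl] at hp' hcen ⊢
  have hprod : (∏ k, if 0 ≤ lev k then lam (lev k) else 1) = ∏ k, lam (lev k) := by simp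
  rw [hprod]
  by_cases ht : t < 1
  · have ht0 : 0 < t := hp.1
    have ht' : lam 0 * t < 1 := by nlinarith
    have e1 : c F (t, x) = F x := indicator_of_mem (show t ∈ Iio (1 : ℝ) from ht) _
    have e2 : c f (lam 0 * t, mulv (fun k => lam (lev k)) x) = f (mulv (fun k => lam (lev k)) x) :=
      indicator_of_mem (show lam 0 * t ∈ Iio (1 : ℝ) from ht') _
    rw [e1, e2]
    exact hP x lam (fun i h => hp.2 i (Nat.zero_le _) h)
      (fun i h => hanti i (Nat.zero_le _) h) h1 hn (fun i h => hp'.2 i (Nat.zero_le _) h)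
      (fun h => hcen h)
  · have e1 : c F (t, x) = 0 := indicator_of_notMem (show t ∉ Iio (1 : ℝ) from ht) _
    rw [e1]; exact bot_le

end four

end Vale.Agent.P262.H335
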