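import Vale.Agent.P262.H335.Tip0

/-!
Gaussian forms of the TIP lemma.
-/

open MeasureTheory ProbabilityTheory Set

namespace Vale.Agent.P262.H335

variable {ι : Type*} [Fintype ι]

/-- standard Gaussian on `ι → ℝ` -/
noncomputable abbrev GG (ι : Type*) [Fintype ι] : Measure (ι → ℝ) :=
  Measure.pi fun _ : ι => gaussianReal 0 1

/-- its density -/
noncomputable def dens (x : ι → ℝ) : ℝ := ∏ k, gaussianPDFReal 0 1 (x k)

lemma dens_pos (x : ι → ℝ) : 0 < dens x :=
  Finset.prod_pos fun _ _ => gaussianPDFReal_pos _ _ _ one_ne_zero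

lemma measurable_dens : Measurable (dens : (ι → ℝ) → ℝ) := by
  unfold dens
  refine Finset.measurable_prod _ fun k _ => ?_
  exact (measurable_gaussianPDFReal 0 1).comp (measurable_pi_apply k)

theorem pi_withDensity'' {X : ι → Type*} [∀ i, MeasurableSpace (X i)]
    (μ : ∀ i, Measure (X i)) [∀ i, SigmaFinite (μ i)] (f : ∀ i, X i → ℝ)
    (h0 : ∀ i x, 0 ≤ f i x) (hi : ∀ i, Integrable (f i) (μ i)) :
    (Measure.pi fun i => (μ i).withDensity fun x => ENNReal.ofReal (f i x))
      = (Measure.pi μ).withDensity fun y => ENNReal.ofReal (∏ i, f i (y i)) := by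
  have hsf : ∀ i, IsFiniteMeasure ((μ i).withDensity fun x => ENNReal.ofReal (f i x)) := fun i =>
    isFiniteMeasure_withDensity_ofReal (hi i).2
  refine Measure.pi_eq fun s hs => ?_
  rw [withDensity_apply _ (MeasurableSet.univ_pi hs), Measure.restrict_pi_pi,
    ← ofReal_integral_eq_lintegral_ofReal, integral_fintype_prod_eq_prod,
    ENNReal.ofReal_prod_of_nonneg]
  · refine Finset.prod_congr rfl fun i _ => ?_
    rw [withDensity_apply _ (hs i), ← ofReal_integral_eq_lintegral_ofReal]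
    · exact (hi i).restrict
    · exact ae_of_all _ (h0 i)
  · exact fun i _ => integral_nonneg (h0 i)
  · exact Integrable.fintype_prod_dep fun i => (hi i).restrict
  · exact ae_of_all _ fun y => Finset.prod_nonneg fun i _ => h0 i _

theorem GG_eq : GG ι = volume.withDensity (fun x => ENNReal.ofReal (dens x)) := by
  have h1 : (fun _ : ι => gaussianReal 0 1) =
      fun _ : ι => (volume : Measure ℝ).withDensity fun x => ENNReal.ofReal (gaussianPDFReal 0 1 x) := by
    funext i
    rw [gaussianReal_of_var_ne_zero 0 one_ne_zero]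
    rfl
  rw [GG, h1, pi_withDensity'' (fun _ : ι => (volume : Measure ℝ)) (fun _ => gaussianPDFReal 0 1)
    (fun _ x => gaussianPDFReal_nonneg _ _ x) (fun _ => integrable_gaussianPDFReal 0 1), volume_pi]
  rfl

lemma setLIntegral_GG {S : Set (ι → ℝ)} (hS : MeasurableSet S) {F : (ι → ℝ) → ENNReal}
    (hF : Measurable F) :
    ∫⁻ x in S, F x ∂(GG ι) = ∫⁻ x in S, F x * ENNReal.ofReal (dens x) := by
  rw [GG_eq, setLIntegral_withDensity_eq_setLIntegral_mul _
    (measurable_dens.ennreal_ofReal) hF hS]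
  refine lintegral_congr fun x => ?_
  simp only [Pi.mul_apply]
  rw [mul_comm]

/-- exact change of the density under a diagonal contraction -/
lemma dens_mulv (L x : ι → ℝ) :
    dens x = dens (mulv L x) * Real.exp (-(∑ k, (1 - L k ^ 2) * x k ^ 2 / 2)) := by
  have h : ∀ k, gaussianPDFReal 0 1 (x k) =
      gaussianPDFReal 0 1 (L k * x k) * Real.exp (-((1 - L k ^ 2) * x k ^ 2 / 2)) := by
    intro k
    simp only [gaussianPDFReal, sub_zero, NNReal.coe_one, mul_one]
    rw [mul_assoc, ← Real.exp_add]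
    congr 2
    ring
  unfold dens mulv
  rw [Finset.prod_congr rfl fun k _ => h k, Finset.prod_mul_distrib, ← Real.exp_sum,
    Finset.sum_neg_distrib]

section four

variable {lev : ι → ℕ} {n : ℕ} {K : ℕ → Set (ι → ℝ)} {φ ψ : (ι → ℝ) → ENNReal}

/-- the dead region -/
def dead (n : ℕ) (K : ℕ → Set (ι → ℝ)) : Set (ι → ℝ) := {x | ∀ i < n, x ∉ K i}

lemma measurableSet_dead (hK : Hs lev n K) : MeasurableSet (dead n K) := by
  have : dead n K = ⋂ i, ⋂ (_ : i < n), (K i)ᶜ := by
    ext x; simp [dead]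
  rw [this]
  exact MeasurableSet.iInter fun i => MeasurableSet.iInter fun h =>
    (hK.closed i h).measurableSet.compl

/-- `x'` is a contraction of `x` towards its iterated centre. -/
structure Con (lev : ι → ℕ) (n : ℕ) (K : ℕ → Set (ι → ℝ)) (x : ι → ℝ) (lam : ℕ → ℝ) :
    Prop where
  dead : x ∈ dead n K
  anti : ∀ i < n, lam (i + 1) ≤ lam i
  le_one : lam 0 ≤ 1
  half : lam n = 1 / 2
  dead' : mulv (fun k => lam (lev k)) x ∈ H335.dead n K
  centre : 0 < n → (2 : ℝ) • mulv (fun k => lam (lev k)) x - x ∈ K (n - 1)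

/-- **Gaussian transport form of the TIP lemma.** -/
theorem tipG (hK : Hs lev n K) (hφ : Measurable φ) (hψ : Measurable ψ)
    (hP : ∀ (x : ι → ℝ) (lam : ℕ → ℝ), Con lev n K x lam →
      φ x ≤ ψ (mulv (fun k => lam (lev k)) x) *
        ENNReal.ofReal (1 / 2 * (∏ k, lam (lev k)) *
          Real.exp (∑ k, (1 - lam (lev k) ^ 2) * x k ^ 2 / 2))) :
    ∫⁻ x in dead n K, φ x ∂(GG ι) ≤ ∫⁻ x in dead n K, ψ x ∂(GG ι) := by
  rw [setLIntegral_GG (measurableSet_dead hK) hφ, setLIntegral_GG (measurableSet_dead hK) hψ]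
  refine tip0 hK (hφ.mul measurable_dens.ennreal_ofReal) (hψ.mul measurable_dens.ennreal_ofReal) ?_
  intro x lam h1 h2 h3 h4 h5 h6
  have hc : Con lev n K x lam := ⟨h1, h2, h3, h4, h5, h6⟩
  have hd := dens_mulv (fun k => lam (lev k)) x
  set x' := mulv (fun k => lam (lev k)) x with hx'
  set e : ℝ := ∑ k, (1 - lam (lev k) ^ 2) * x k ^ 2 / 2 with he
  have hdx' := (dens_pos x').le
  calc φ x * ENNReal.ofReal (dens x)
      ≤ (ψ x' * ENNReal.ofReal (1 / 2 * (∏ k, lam (lev k)) * Real.exp e)) *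
        ENNReal.ofReal (dens x) := by gcongr; exact hP x lam hc
    _ = ψ x' * (ENNReal.ofReal (dens x) *
          ENNReal.ofReal (1 / 2 * (∏ k, lam (lev k)) * Real.exp e)) := by ring
    _ = ψ x' * ENNReal.ofReal (dens x *
          (1 / 2 * (∏ k, lam (lev k)) * Real.exp e)) := by
        rw [ENNReal.ofReal_mul (dens_pos x).le]
    _ = ψ x' * ENNReal.ofReal (dens x' * (1 / 2 * ∏ k, lam (lev k))) := by
        congr 2
        rw [hd]
        have : Real.exp (-e) * Real.exp e = 1 := by rw [← Real.exp_add]; simp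
        calc _ = dens x' * (1 / 2 * ∏ k, lam (lev k)) * (Real.exp (-e) * Real.exp e) := by ring
          _ = _ := by rw [this, mul_one]
    _ = ψ x' * ENNReal.ofReal (dens x') * ENNReal.ofReal (1 / 2 * ∏ k, lam (lev k)) := by
        rw [ENNReal.ofReal_mul hdx']; ring

omit [Fintype ι] in
lemma Con.half_le {x : ι → ℝ} {lam : ℕ → ℝ} (h : Con lev n K x lam) :
    ∀ i ≤ n, 1 / 2 ≤ lam i := by
  have key : ∀ m, m ≤ n → lam n ≤ lam (n - m) := by
    intro m
    induction m with
    | zero => intro _; exact le_rfl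
    | succ m ih =>
      intro hm
      have h1 := ih (by omega)
      have h2 := h.anti (n - (m + 1)) (by omega)
      have h3 : n - (m + 1) + 1 = n - m := by omega
      rw [h3] at h2
      exact h1.trans h2
  intro i hi
  have := key (n - i) (by omega)
  rw [h.half] at this
  have h4 : n - (n - i) = i := by omega
  rwa [h4] at this

omit [Fintype ι] in
lemma Con.le_one' {x : ι → ℝ} {lam : ℕ → ℝ} (h : Con lev n K x lam) :
    ∀ i ≤ n, lam i ≤ 1 := by
  intro i
  induction i with
  | zero => intro _; exact h.le_one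
  | succ i ih => intro hi; exact (h.anti i (by omega)).trans (ih (by omega))

/-- chord inequality: `0.54 * (-log L) ≤ (1 - L^2)/2` on `[1/2,1]`. -/
lemma chord {L : ℝ} (h1 : 1 / 2 ≤ L) (h2 : L ≤ 1) :
    0.54 * (-Real.log L) ≤ (1 - L ^ 2) / 2 := by
  have hL : 0 < L := by linarith
  have hu : 0 < L ^ 2 := by positivity
  set s : ℝ := (1 - L ^ 2) / (3 / 4) with hs
  have hs0 : 0 ≤ s := by
    rw [hs]; apply div_nonneg <;> nlinarith
  have hs1 : s ≤ 1 := by
    rw [hs, div_le_one (by norm_num)]; nlinarith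
  have hconc := strictConcaveOn_log_Ioi.concaveOn
  have h3 := hconc.2 (show (1 : ℝ) ∈ Ioi 0 by norm_num [mem_Ioi])
    (show (1 / 4 : ℝ) ∈ Ioi 0 by norm_num [mem_Ioi]) (show 0 ≤ 1 - s by linarith) hs0 (by ring)
  have h4 : (1 - s) • (1 : ℝ) + s • (1 / 4 : ℝ) = L ^ 2 := by
    simp only [smul_eq_mul, hs]; ring
  rw [h4, Real.log_one] at h3
  simp only [smul_eq_mul, mul_zero, zero_add] at h3
  have h5 : Real.log (1 / 4) = -(2 * Real.log 2) := by
    rw [show (1 / 4 : ℝ) = (2 ^ 2)⁻¹ by norm_num, Real.log_inv, Real.log_pow]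
    norm_num
  rw [h5, Real.log_pow] at h3
  have h6 := Real.log_two_lt_d9
  have h7 : s = (1 - L ^ 2) * (4 / 3) := by rw [hs]; ring
  have h8 : (0 : ℝ) ≤ 1 - L ^ 2 := by nlinarith
  rw [h7] at h3
  push_cast at h3
  nlinarith

/-- exponent inequality: Gaussian gain against the Jacobian. -/
lemma exp_ineq {x : ι → ℝ} {L : ι → ℝ} (hL : ∀ k, 1 / 2 ≤ L k ∧ L k ≤ 1) :
    Real.exp (∑ k, (-Real.log (L k)) * (0.54 * x k ^ 2 - 1)) ≤
      (∏ k, L k) * Real.exp (∑ k, (1 - L k ^ 2) * x k ^ 2 / 2) := by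
  have h1 : ∏ k, L k = Real.exp (∑ k, Real.log (L k)) := by
    rw [Real.exp_sum]
    refine Finset.prod_congr rfl fun k _ => ?_
    rw [Real.exp_log (by linarith [(hL k).1])]
  rw [h1, ← Real.exp_add, ← Finset.sum_add_distrib]
  apply Real.exp_le_exp.2
  refine Finset.sum_le_sum fun k _ => ?_
  have h2 := chord (hL k).1 (hL k).2
  nlinarith [sq_nonneg (x k)]

/-- Abel summation for a nondecreasing sequence. -/
lemma abel {l : ℕ → ℝ} (h0 : 0 ≤ l 0) (hmono : ∀ i < n, l i ≤ l (i + 1)) (hlev : ∀ k, lev k ≤ n)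
    {a : ι → ℝ} {B : ℝ} (hB : ∀ i ≤ n, B ≤ ∑ k with i ≤ lev k, a k) :
    B * l n ≤ ∑ k, l (lev k) * a k := by
  classical
  have tel : ∀ m ≤ n, l m = l 0 + ∑ i ∈ Finset.range n, if i + 1 ≤ m then l (i + 1) - l i else 0 := by
    intro m hm
    rw [← Finset.sum_filter]
    have : (Finset.range n).filter (fun i => i + 1 ≤ m) = Finset.range m := by
      ext i; simp only [Finset.mem_filter, Finset.mem_range]; omega
    rw [this, Finset.sum_range_sub]; ring
  have e1 : ∑ k, l (lev k) * a k = l 0 * ∑ k with 0 ≤ lev k, a k +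
      ∑ i ∈ Finset.range n, (l (i + 1) - l i) * ∑ k with i + 1 ≤ lev k, a k := by
    have h1 : ∀ k, l (lev k) * a k = l 0 * a k +
        ∑ i ∈ Finset.range n, (l (i + 1) - l i) * (if i + 1 ≤ lev k then a k else 0) := by
      intro k
      rw [tel (lev k) (hlev k), add_mul, Finset.sum_mul]
      congr 1
      refine Finset.sum_congr rfl fun i _ => ?_
      split_ifs <;> ring
    rw [Finset.sum_congr rfl fun k _ => h1 k, Finset.sum_add_distrib, ← Finset.mul_sum,
      Finset.sum_comm]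
    congr 1
    · simp
    · refine Finset.sum_congr rfl fun i _ => ?_
      rw [← Finset.mul_sum, Finset.sum_filter]
  have e2 : l n = l 0 + ∑ i ∈ Finset.range n, (l (i + 1) - l i) := by
    rw [Finset.sum_range_sub]; ring
  rw [e1]
  calc B * l n = l 0 * B + ∑ i ∈ Finset.range n, (l (i + 1) - l i) * B := by
        rw [e2, ← Finset.sum_mul]; ring
    _ ≤ _ := by
        refine add_le_add (mul_le_mul_of_nonneg_left (hB 0 (Nat.zero_le _)) h0)
          (Finset.sum_le_sum fun i hi => ?_)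
        have hi' := Finset.mem_range.1 hi
        exact mul_le_mul_of_nonneg_left (hB (i + 1) (by omega)) (by linarith [hmono i hi'])

/-- **TIP lemma (helper763), Gaussian form.** -/
theorem tip763 (hlev : ∀ k, lev k ≤ n) (hK : Hs lev n K) (hφ : Measurable φ) {M : ENNReal}
    (hM : ∀ (x : ι → ℝ) (lam : ℕ → ℝ), Con lev n K x lam →
      φ x ≤ M * φ (mulv (fun k => lam (lev k)) x))
    {far : Set (ι → ℝ)} (hfarm : MeasurableSet far) {C : ℝ} (hC : 1 ≤ 0.54 * C)
    (hfar : ∀ x ∈ far, ∀ i ≤ n, C * ({k | i ≤ lev k} : Finset ι).card ≤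
      ∑ k with i ≤ lev k, x k ^ 2) :
    ∫⁻ x in dead n K ∩ far, φ x ∂(GG ι) ≤
      2 * M * ENNReal.ofReal (Real.exp (-(Real.log 2 * ((0.54 * C - 1) *
        ({k | lev k = n} : Finset ι).card)))) * ∫⁻ x in dead n K, φ x ∂(GG ι) := by
  classical
  set w : ℝ := (((({k | lev k = n} : Finset ι).card : ℕ)) : ℝ) with hw
  set κ : ENNReal := 2 * M * ENNReal.ofReal (Real.exp (-(Real.log 2 * ((0.54 * C - 1) * w))))
    with hκ
  have hmd := measurableSet_dead hK
  have e1 : ∫⁻ x in dead n K ∩ far, φ x ∂(GG ι) =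
      ∫⁻ x in dead n K, far.indicator φ x ∂(GG ι) := by
    rw [lintegral_indicator hfarm, Measure.restrict_restrict hfarm, inter_comm]
  rw [e1, ← lintegral_const_mul _ hφ]
  refine tipG hK (hφ.indicator hfarm) (hφ.const_mul _) ?_
  intro x lam hc
  by_cases hx : x ∈ far
  swap
  · rw [indicator_of_notMem hx]; exact bot_le
  rw [indicator_of_mem hx]
  have hL : ∀ k, 1 / 2 ≤ lam (lev k) ∧ lam (lev k) ≤ 1 := fun k =>
    ⟨hc.half_le _ (hlev k), hc.le_one' _ (hlev k)⟩
  have h1 := exp_ineq (x := x) hL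
  have hwcard : ∀ i ≤ n, w ≤ ({k | i ≤ lev k} : Finset ι).card := by
    intro i hi
    rw [hw]
    exact_mod_cast Finset.card_le_card fun k hk => by
      simp only [Finset.mem_filter, Finset.mem_univ, true_and] at hk ⊢
      omega
  have hw0 : 0 ≤ w := by rw [hw]; positivity
  have h2 : (0.54 * C - 1) * w * (-Real.log (lam n)) ≤
      ∑ k, (-Real.log (lam (lev k))) * (0.54 * x k ^ 2 - 1) := by
    refine abel (l := fun i => -Real.log (lam i)) ?_ ?_ hlev ?_
    · have := Real.log_nonpos (by linarith [hc.half_le 0 (Nat.zero_le _)]) hc.le_one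
      linarith
    · intro i hi
      have h3 := hc.half_le (i + 1) (by omega)
      have := Real.log_le_log (by linarith) (hc.anti i hi)
      linarith
    · intro i hi
      rw [Finset.sum_sub_distrib, ← Finset.mul_sum]
      have h3 := hfar x hx i hi
      have h4 := hwcard i hi
      simp only [Finset.sum_const, nsmul_eq_mul, mul_one]
      nlinarith
  have h3 : -Real.log (lam n) = Real.log 2 := by
    rw [hc.half, one_div, Real.log_inv, neg_neg]
  rw [h3] at h2
  have h4 : Real.exp (Real.log 2 * ((0.54 * C - 1) * w)) ≤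
      (∏ k, lam (lev k)) * Real.exp (∑ k, (1 - lam (lev k) ^ 2) * x k ^ 2 / 2) :=
    (Real.exp_le_exp.2 (by linarith)).trans h1
  set P : ℝ := (∏ k, lam (lev k)) * Real.exp (∑ k, (1 - lam (lev k) ^ 2) * x k ^ 2 / 2) with hP
  have h5 : 1 ≤ ENNReal.ofReal (Real.exp (-(Real.log 2 * ((0.54 * C - 1) * w)))) *
      ENNReal.ofReal P := by
    rw [← ENNReal.ofReal_mul (Real.exp_pos _).le, ← ENNReal.ofReal_one]
    apply ENNReal.ofReal_le_ofReal
    calc (1 : ℝ) = Real.exp (-(Real.log 2 * ((0.54 * C - 1) * w))) *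
          Real.exp (Real.log 2 * ((0.54 * C - 1) * w)) := by rw [← Real.exp_add]; simp
      _ ≤ _ := by gcongr
  have h6 : (2 : ENNReal) * ENNReal.ofReal (1 / 2 * P) = ENNReal.ofReal P := by
    rw [← ENNReal.ofReal_ofNat, ← ENNReal.ofReal_mul (by norm_num)]
    congr 1; ring
  calc φ x ≤ M * φ (mulv (fun k => lam (lev k)) x) := hM x lam hc
    _ = M * φ (mulv (fun k => lam (lev k)) x) * 1 := by rw [mul_one]
    _ ≤ M * φ (mulv (fun k => lam (lev k)) x) *
        (ENNReal.ofReal (Real.exp (-(Real.log 2 * ((0.54 * C - 1) * w)))) *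
          ENNReal.ofReal P) := by gcongr
    _ = κ * φ (mulv (fun k => lam (lev k)) x) * ENNReal.ofReal (1 / 2 * P) := by
        rw [hκ, ← h6]; ring
    _ = _ := by
        have h7 : 1 / 2 * P = 1 / 2 * (∏ k, lam (lev k)) *
            Real.exp (∑ k, (1 - lam (lev k) ^ 2) * x k ^ 2 / 2) := by rw [hP]; ring
        rw [h7]

end four

end Vale.Agent.P262.H335
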